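import Crest.Agent.X262.NumPar.Main

/-! # Row 262, road B, NUM-MOB (helper9): `mobStmt : Ends.MobStmt` -/

set_option autoImplicit false
set_option linter.unusedSectionVars false

noncomputable section

namespace Crest.Agent.X262.Mob9

open Crest.Agent.X277 Crest.Agent.X277.BD Polynomial Matrix
open Crest.Agent.X262.Vb Crest.Agent.X262.Vb37 Crest.Agent.X262.Ends
open Crest.Agent.X262.Bub96 (hv)

variable {J : Type} [Fintype J] [DecidableEq J] {io : J → Type} [∀ j, Fintype (io j)]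
  [∀ j, DecidableEq (io j)] {d ν : J → ℕ}
variable {E F : Type} [Field E] [Algebra ℂ E] [Field F] [Algebra ℂ F]

theorem bas_map (ι : E →ₐ[ℂ] F) {y₀ : Pnt io E} {y : Pnt io F}
    (h : ∀ j i, ν j ≠ 0 → y j i = ι (y₀ j i)) : bas ν y = (bas ν y₀).map ι := by
  rw [bas, bas, IntermediateField.adjoin_map]
  congr 1
  ext t
  constructor
  · rintro ⟨j, i, i', hj, rfl⟩
    exact ⟨_, ⟨j, i, i', hj, rfl⟩, by rw [map_div₀, h j i hj, h j i' hj]⟩
  · rintro ⟨_, ⟨j, i, i', hj, rfl⟩, rfl⟩
    exact ⟨j, i, i', hj, by rw [map_div₀, h j i hj, h j i' hj]⟩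

theorem essFT_bas (y : Pnt io E) : Algebra.EssFiniteType ℂ (bas ν y) :=
  Hb.essFT_adjoin' ((Set.finite_range fun p : Σ j, io j × io j => y p.1 p.2.1 / y p.1 p.2.2).subset
    fun _ ⟨j, i, i', _, h⟩ => ⟨⟨j, i, i'⟩, h.symm⟩)

omit [Algebra ℂ E] in
/-- forms proportional (over the function field) to coprime forms are constant multiples -/
theorem const_of_cp {h g : (j : J) → io j → E[X]} (hh : Cp d h)
    (hg : ∀ j i, (g j i).natDegree ≤ d j) (j : J) {c : RatFunc E} (hc : c ≠ 0)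
    (e : ∀ i, algebraMap E[X] (RatFunc E) (g j i) = c * algebraMap E[X] (RatFunc E) (h j i)) :
    ∃ a : E, a ≠ 0 ∧ ∀ i, g j i = C a * h j i := by
  obtain ⟨u, hu⟩ := (Ideal.mem_span_range_iff_exists_fun).1
    (hh.2.2 j ▸ (Submodule.mem_top : (1 : E[X]) ∈ ⊤))
  have h1 : algebraMap E[X] (RatFunc E) (∑ i, u i * g j i) = c := by
    have h2 := congrArg (algebraMap E[X] (RatFunc E)) hu
    simp only [map_sum, map_mul, map_one] at h2 ⊢
    rw [← mul_one c, ← h2, Finset.mul_sum]
    exact Finset.sum_congr rfl fun i _ => by rw [e]; ring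
  set r := ∑ i, u i * g j i
  have h3 : ∀ i, g j i = r * h j i := fun i =>
    RatFunc.algebraMap_injective E (by rw [map_mul, h1, e])
  have hr : r ≠ 0 := fun h0 => hc (by rw [← h1, h0, map_zero])
  obtain ⟨i, hi⟩ := hh.2.1 j
  have h4 := hg j i
  have h5 := le_natDegree_of_ne_zero hi
  rw [h3, natDegree_mul hr fun h0 => hi (by rw [h0, coeff_zero])] at h4
  have h6 : r = C (r.coeff 0) := eq_C_of_natDegree_le_zero (by omega)
  exact ⟨r.coeff 0, fun h0 => hr (by rw [h6, h0, map_zero]), fun i => by rw [← h6, h3]⟩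

/-- **MOB** -/
theorem mobStmt : MobStmt := by
  intro J _ _ io _ _ A _ T d ν j₁ K _ _ _ f hL E _ _ g hg hg0 hS hd hm
  let φ := algebraMap E[X] (RatFunc E)
  let ι : E →ₐ[ℂ] RatFunc E := IsScalarTower.toAlgHom ℂ E (RatFunc E)
  have hι : ∀ a, ι a = φ (C a) := fun a => rfl
  let y : Pnt io (RatFunc E) := fun j i => φ (g j i)
  have hy : Sw f y := ⟨fun j => (hg0 j).imp fun i hi => RatFunc.algebraMap_ne_zero hi,
    fun q κ h1 h2 => (MvPolynomial.aeval_algebraMap_apply (RatFunc E) _ q).trans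
      ((congrArg φ (hS q κ h1 h2)).trans (map_zero φ))⟩
  have hb : ∀ j i, ν j ≠ 0 → y j i = ι ((g j i).coeff 0) := fun j i hj =>
    congrArg φ (eq_C_of_natDegree_le_zero (hL.zero j hj ▸ hg j i))
  obtain ⟨β', t, c, hc, e⟩ := (NumPar.parStmt T d ν j₁ f hL _ y hy).2 (by
    have h1 := essFT_bas (ν := ν) y
    have h2 := essFT_bas (ν := ν) fun j i => (g j i).coeff 0
    have h3 := (((bas ν fun j i => (g j i).coeff 0).equivMap ι).trans
      (IntermediateField.equivOfEq (bas_map ι hb).symm)).trdeg_eq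
    rw [trdeg_eq_dim, trdeg_eq_dim, Nat.cast_inj] at h3
    exact hd.trans h3.le)
  have hr : ∀ x, β' x ∈ ι.fieldRange := fun x => by
    have hx : x ∈ bas ν fun j i => (f j i).coeff 0 := hL.gen ▸ IntermediateField.mem_top
    refine (IntermediateField.adjoin_le_iff (T := ι.fieldRange.comap β')).2 ?_ hx
    rintro _ ⟨j, i, i', hj, rfl⟩
    have h1 : ∀ i, y j i = c j * β' ((f j i).coeff 0) := fun i => by
      rw [e, hL.zero j hj, eq_C_of_natDegree_le_zero (p := f j i) (hL.zero j hj ▸ hL.cp.1 j i)]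
      cases t <;> simp [hv]
    refine ⟨(g j i).coeff 0 / (g j i').coeff 0, ?_⟩
    change ι _ = β' _
    rw [map_div₀, map_div₀, ← hb j i hj, ← hb j i' hj, h1, h1, mul_div_mul_left _ _ (hc j)]
  let β : K →ₐ[ℂ] E := (AlgEquiv.ofInjectiveField ι).symm.toAlgHom.comp
    (β'.codRestrict ι.range hr)
  have hβ : ∀ x, ι (β x) = β' x := fun x =>
    congrArg Subtype.val ((AlgEquiv.ofInjectiveField ι).apply_symm_apply ⟨β' x, hr x⟩)
  let f' : (j : J) → io j → E[X] := fun j i => (f j i).map (β : K →+* E)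
  have hf' : Cp d f' := hL.cp.map _
  have e' : ∀ j i, φ (g j i) = c j * hv (d j) ((f' j i).map (ι : E →+* RatFunc E)) t :=
    fun j i => by
      rw [Polynomial.map_map, show (ι : E →+* RatFunc E).comp (β : K →+* E) = β' from
        RingHom.ext hβ]
      exact e j i
  obtain ⟨s, s', a, b, a', b', h2, h3⟩ := NumPar.exists_span hf' hL.one
  let P : E → E → E[X] := fun a b => C a * g j₁ s + C b * g j₁ s'
  have hP : ∀ a b, φ (P a b) =
      c j₁ * hv 1 ((C a * f' j₁ s + C b * f' j₁ s').map (ι : E →+* RatFunc E)) t := fun a b => by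
    simp only [P, map_add, map_mul, e', ← hι, hL.one]
    cases t <;> simp [hv] <;> ring
  have hP1 : ∀ a b, P a b = C ((P a b).coeff 1) * X + C ((P a b).coeff 0) := fun a b =>
    eq_X_add_C_of_natDegree_le_one (natDegree_add_le_of_degree_le
      ((natDegree_C_mul_le _ _).trans (hL.one ▸ hg j₁ s))
      ((natDegree_C_mul_le _ _).trans (hL.one ▸ hg j₁ s')))
  let μ : Matrix (Fin 2) (Fin 2) E :=
    !![(P a b).coeff 1, (P a b).coeff 0; (P a' b').coeff 1, (P a' b').coeff 0]
  have hμ : μ.map (ι : E →+* RatFunc E) *ᵥ hx (some (φ X)) = c j₁ • hx t := by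
    have h4 := hP a b
    have h5 := hP a' b'
    rw [h2, hP1 a b] at h4
    rw [h3, hP1 a' b'] at h5
    simp only [map_add, map_mul, ← hι] at h4 h5
    funext k
    fin_cases k <;> cases t <;>
      simp [μ, hx, hv, mulVec, dotProduct, Fin.sum_univ_two, coeff_one] at h4 h5 ⊢ <;> assumption
  have hφ : ∀ p : E[X], φ p = (p.map (ι : E →+* RatFunc E)).eval (φ X) := fun p => by
    rw [← eval₂_eq_eval_map]
    exact (RatFunc.aeval_X_left_eq_algebraMap p).symm
  have key : ∀ j i, φ (g j i) = c j / c j₁ ^ d j * φ (mob (d j) μ (f' j i)) := fun j i => by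
    rw [e', hφ (mob _ _ _), mob_map, eval_mob, hμ, hev_smul,
      hev_hx (natDegree_map_le.trans (hf'.1 j i)), ← mul_assoc,
      div_mul_cancel₀ _ (pow_ne_zero _ (hc j₁))]
  have hdet : μ.det ≠ 0 := by
    obtain ⟨i, i', hm⟩ := hm
    have h4 : ∀ i, g j₁ i = mob 1 μ (f' j₁ i) := fun i => RatFunc.algebraMap_injective E (by
      have h5 := key j₁ i
      rwa [hL.one, pow_one, div_self (hc j₁), one_mul] at h5)
    intro h0
    rw [det_fin_two] at h0
    refine hm ?_
    rw [h4, h4]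
    simp only [mob, Finset.sum_range_succ, Finset.sum_range_zero, zero_add, pow_zero, mul_one,
      pow_one, Nat.sub_zero, Nat.sub_self, coeff_add, coeff_C_mul, coeff_X_zero, coeff_X_one,
      coeff_C_zero, mul_zero, coeff_C_succ, add_zero]
    linear_combination ((f' j₁ i).coeff 0 * (f' j₁ i').coeff 1 -
      (f' j₁ i').coeff 0 * (f' j₁ i).coeff 1) * h0
  have hcp : Cp d fun j i => mob (d j) μ (f' j i) := by
    simpa using cp_mob hf' hdet (c := fun _ => 1) fun _ => one_ne_zero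
  choose u hu using fun j => const_of_cp hcp hg j
    (div_ne_zero (hc j) (pow_ne_zero _ (hc j₁))) (key j)
  exact ⟨β, μ, u, hdet, fun j => (hu j).1, fun j => (hu j).2⟩

end Crest.Agent.X262.Mob9
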